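import Vale.Agent.P217.Formal.LowDegree

/-!
# P217, module Formal: homomorphisms of formal group laws (`homTarget`)
-/

open MvPowerSeries Finset
open scoped Classical

noncomputable section

namespace Vale.Agent.P217

universe u w

section Additive

variable {K : Type u} [CommRing K]

/-- An additive series over a domain of characteristic zero is linear. -/
lemma eq_C_mul_X_of_additive [IsDomain K] [CharZero K] {H : PowerSeries K}
    (hH0 : PowerSeries.constantCoeff H = 0)
    (hH : H.subst (X 0 + X 1 : MvPowerSeries (Fin 2) K) =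
      H.subst (X 0 : MvPowerSeries (Fin 2) K) + H.subst (X 1 : MvPowerSeries (Fin 2) K)) :
    H = PowerSeries.C (PowerSeries.coeff 1 H) * PowerSeries.X := by
  ext m
  rw [PowerSeries.coeff_C_mul, PowerSeries.coeff_X]
  rcases m with _ | _ | m
  · simp [hH0]
  · simp
  · have h := congrArg (coeff (Finsupp.single (0 : Fin 2) (m + 1) + Finsupp.single 1 1)) hH
    rw [PowerSeries.coeff_subst_X_zero_add_X_one, map_add, PowerSeries.coeff_subst_single,
      PowerSeries.coeff_subst_single, if_neg, if_neg, add_zero] at h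
    · simp only [Finsupp.add_apply, Finsupp.single_eq_same, ne_eq, zero_ne_one, one_ne_zero,
        not_false_eq_true, Finsupp.single_eq_of_ne, add_zero, zero_add] at h
      rw [if_neg (by omega), mul_zero]
      rcases mul_eq_zero.mp h with h' | h'
      · rw [Nat.cast_eq_zero, Nat.choose_eq_zero_iff] at h'
        omega
      · exact h'
    · intro hh
      simpa using congrArg (fun e : Fin 2 →₀ ℕ => e 0) hh
    · intro hh
      simpa using congrArg (fun e : Fin 2 →₀ ℕ => e 1) hh

lemma IsHom.isFGHom {F G : FormalGroup K} {φ : PowerSeries K} (h : IsHom F G φ) : IsFGHom F G φ :=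
  ⟨h.1, h.2⟩

/-- A homomorphism is linear in the logarithms. -/
theorem hom_log_linear [IsDomain K] [CharZero K] {F G : FormalGroup K} {f f' : PowerSeries K}
    (hF : HasLog F f) (hG : HasLog G f') (hf0 : PowerSeries.constantCoeff f = 0)
    (hf1 : PowerSeries.coeff 1 f = 1) (hf0' : PowerSeries.constantCoeff f' = 0)
    (hf1' : PowerSeries.coeff 1 f' = 1) {φ : PowerSeries K} (h : IsHom F G φ) :
    f'.subst φ = PowerSeries.C (PowerSeries.coeff 1 φ) * f := by
  have hfu : IsUnit (PowerSeries.coeff 1 f) := hf1 ▸ isUnit_one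
  set fi := f.substInvOfIsUnit hfu with hfi
  have hfi0 : PowerSeries.constantCoeff fi = 0 := PowerSeries.constantCoeff_substInvOfIsUnit _ hfu
  have hφs := PowerSeries.HasSubst.of_constantCoeff_zero' h.1
  set g : PowerSeries K := f'.subst φ with hg
  have hg0 : PowerSeries.constantCoeff g = 0 := constantCoeff_subst_zero f' hf0' h.1
  have hφF : ∀ {a b : MvPowerSeries (Fin 2) K}, constantCoeff a = 0 → constantCoeff b = 0 →
      g.subst (fadd F a b) = g.subst a + g.subst b := by
    intro a b ha hb
    have hab := constantCoeff_faddLog F ha hb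
    rw [hg, PowerSeries.subst_comp_subst_apply hφs (PowerSeries.HasSubst.of_constantCoeff_zero hab),
      PowerSeries.subst_comp_subst_apply hφs (PowerSeries.HasSubst.of_constantCoeff_zero ha),
      PowerSeries.subst_comp_subst_apply hφs (PowerSeries.HasSubst.of_constantCoeff_zero hb)]
    exact (congrArg (fun x => f'.subst x) (h.isFGHom.subst_add ha hb)).trans
      (hG.subst_fadd (constantCoeff_subst_zero _ h.1 ha) (constantCoeff_subst_zero _ h.1 hb))
  set H : PowerSeries K := g.subst fi with hH
  have hfis := PowerSeries.HasSubst.of_constantCoeff_zero' hfi0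
  have hX0 : constantCoeff (X 0 + X 1 : MvPowerSeries (Fin 2) K) = 0 := by simp
  have hinv : ∀ {a : MvPowerSeries (Fin 2) K}, constantCoeff a = 0 → f.subst (fi.subst a) = a := by
    intro a ha
    rw [← PowerSeries.subst_comp_subst_apply hfis (PowerSeries.HasSubst.of_constantCoeff_zero ha),
      hfi, PowerSeries.subst_substInvOfIsUnit_right _ hf0 hfu,
      PowerSeries.subst_X (PowerSeries.HasSubst.of_constantCoeff_zero ha)]
  have hi : ∀ {a : MvPowerSeries (Fin 2) K}, constantCoeff a = 0 →
      constantCoeff (fi.subst a) = 0 := fun ha => constantCoeff_subst_zero _ hfi0 ha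
  have hadd : H.subst (X 0 + X 1 : MvPowerSeries (Fin 2) K) =
      H.subst (X 0 : MvPowerSeries (Fin 2) K) + H.subst (X 1 : MvPowerSeries (Fin 2) K) := by
    rw [hH, PowerSeries.subst_comp_subst_apply hfis (PowerSeries.HasSubst.of_constantCoeff_zero hX0),
      PowerSeries.subst_comp_subst_apply hfis (PowerSeries.HasSubst.X _),
      PowerSeries.subst_comp_subst_apply hfis (PowerSeries.HasSubst.X _),
      ← hφF (hi (constantCoeff_X _)) (hi (constantCoeff_X _))]
    refine congrArg (fun x => g.subst x) (subst_injective hf0 hfu (hi hX0)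
      (constantCoeff_faddLog F (hi (constantCoeff_X _)) (hi (constantCoeff_X _))) ?_)
    rw [hinv hX0, hF.subst_fadd (hi (constantCoeff_X _)) (hi (constantCoeff_X _)),
      hinv (constantCoeff_X _), hinv (constantCoeff_X _)]
  have hlin : H = PowerSeries.C (PowerSeries.coeff 1 H) * PowerSeries.X :=
    eq_C_mul_X_of_additive (constantCoeff_subst_zero g hg0 hfi0) hadd
  have hfs := PowerSeries.HasSubst.of_constantCoeff_zero' hf0
  have hgH : g = PowerSeries.C (PowerSeries.coeff 1 H) * f := by
    calc g = g.subst (fi.subst f) := by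
          rw [hfi, PowerSeries.subst_substInvOfIsUnit_left _ hf0 hfu, PowerSeries.X_subst]
      _ = H.subst f := (PowerSeries.subst_comp_subst_apply hfis hfs g).symm
      _ = _ := by
          conv_lhs => rw [hlin]
          rw [← PowerSeries.smul_eq_C_mul, PowerSeries.subst_smul hfs, PowerSeries.subst_X hfs,
            PowerSeries.smul_eq_C_mul]
  have hcoe : PowerSeries.coeff 1 φ = PowerSeries.coeff 1 H := by
    have h1 := coeff_subst_lead_left le_rfl f' (a := φ) fun m hm => by
      rw [Nat.lt_one_iff.mp hm, PowerSeries.coeff_zero_eq_constantCoeff_apply, h.1]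
    rw [← hg, hgH, PowerSeries.coeff_C_mul, hf1, hf1', mul_one, one_mul] at h1
    exact h1.symm
  rw [hcoe, ← hgH]

end Additive

section CharP

variable {A : Type u} [CommRing A] (p : ℕ) [hp : Fact p.Prime] [CharP A p]

/-- No term linear in `Y`. -/
def NoLinY (a : MvPowerSeries (Fin 2) A) : Prop := ∀ d, d 1 = 1 → coeff d a = 0

lemma NoLinY.mul {a b : MvPowerSeries (Fin 2) A} (ha : NoLinY a) (hb : NoLinY b) :
    NoLinY (a * b) := by
  intro d hd
  rw [coeff_mul]
  refine Finset.sum_eq_zero fun x hx => ?_
  rw [Finset.HasAntidiagonal.mem_antidiagonal] at hx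
  have h1 : x.1 1 + x.2 1 = 1 := by rw [← Finsupp.add_apply, hx, hd]
  rcases (by omega : x.1 1 = 1 ∨ x.2 1 = 1) with h | h
  · rw [ha _ h, zero_mul]
  · rw [hb _ h, mul_zero]

lemma NoLinY.pow {a : MvPowerSeries (Fin 2) A} (ha : NoLinY a) : ∀ k, NoLinY (a ^ k) := by
  intro k
  induction k with
  | zero =>
      intro d hd
      rw [pow_zero, coeff_one, if_neg]
      rintro rfl
      simp at hd
  | succ k ih => rw [pow_succ]; exact ih.mul ha

omit hp in
lemma noLinY_subst_X {φ : PowerSeries A} (h1 : PowerSeries.coeff 1 φ = 0) (i : Fin 2) :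
    NoLinY (φ.subst (X i : MvPowerSeries (Fin 2) A)) := by
  intro d hd
  rw [PowerSeries.coeff_subst_single]
  split_ifs with h
  · fin_cases i
    · exfalso
      have := congrArg (fun e : Fin 2 →₀ ℕ => e 1) h
      simp [hd] at this
    · simpa [hd] using h1
  · rfl

lemma noLinY_pow_char (F : MvPowerSeries (Fin 2) A) : NoLinY (F ^ p) := by
  intro d hd
  have := ExpChar.prime (R := A) hp.out
  rw [← MvPowerSeries.map_frobenius_expand p hp.out.ne_zero, coeff_map,
    coeff_expand_of_not_dvd _ _ _ (i := 1), map_zero]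
  rw [hd, Nat.dvd_one]
  exact hp.out.ne_one

/-- A homomorphism with zero derivative is supported on multiples of `p`. -/
theorem coeff_hom_of_deriv_zero [IsDomain A] {F G : FormalGroup A} {φ : PowerSeries A}
    (h : IsHom F G φ) (h1 : PowerSeries.coeff 1 φ = 0) :
    ∀ m, ¬ p ∣ m → PowerSeries.coeff m φ = 0 := by
  intro m
  induction m using Nat.strong_induction_on with
  | _ m ih =>
    intro hm
    rcases m with _ | _ | m
    · exact absurd (dvd_zero p) hm
    · exact h1
    set M := m + 1 + 1 with hM
    set d : Fin 2 →₀ ℕ := Finsupp.single 0 (m + 1) + Finsupp.single 1 1 with hd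
    have hd0 : d 0 = m + 1 := by simp [hd]
    have hd1 : d 1 = 1 := by simp [hd]
    have hdeg : d.degree = M := by rw [degree_fin_two, hd0, hd1]
    have hR : coeff d (fadd G (φ.subst (x0 : MvPowerSeries (Fin 2) A))
        (φ.subst (x1 : MvPowerSeries (Fin 2) A))) = 0 := by
      have hc : ∀ j : Fin 2, constantCoeff (![φ.subst (x0 : MvPowerSeries (Fin 2) A),
          φ.subst (x1 : MvPowerSeries (Fin 2) A)] j) = 0 := fun j => by
        fin_cases j <;> exact constantCoeff_subst_zero _ h.1 (constantCoeff_X _)
      rw [fadd, coeff_subst (hasSubst_of_constantCoeff_zero hc)]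
      refine finsum_eq_zero_of_forall_eq_zero fun e => ?_
      rw [Finsupp.prod_fintype _ _ (fun i => pow_zero _), Fin.prod_univ_two]
      simp only [Matrix.cons_val_zero, Matrix.cons_val_one]
      rw [(((noLinY_subst_X h1 0).pow _).mul ((noLinY_subst_X h1 1).pow _)) d hd1, smul_zero]
    have hL : coeff d (φ.subst F.toPowerSeries) =
        PowerSeries.coeff M φ * coeff d (F.toPowerSeries ^ M) := by
      rw [coeff_subst_sum φ F.zero_constantCoeff hdeg.le, Finset.sum_range_succ,
        Finset.sum_eq_zero, zero_add]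
      intro k hk
      rw [Finset.mem_range] at hk
      by_cases hpk : p ∣ k
      · obtain ⟨c, rfl⟩ := hpk
        rw [pow_mul, (noLinY_pow_char p F.toPowerSeries).pow c d hd1, mul_zero]
      · rw [ih k hk hpk, zero_mul]
    have hpow : coeff d (F.toPowerSeries ^ M) = (M : A) := by
      have hord := le_order_pow_sub_pow F.zero_constantCoeff (by simp) (D := 2)
        (coeff_formalGroup_low F) (m + 1)
      have h2 := coeff_of_lt_order
        (lt_of_lt_of_le (Nat.cast_lt.mpr (show d.degree < 2 + (m + 1) by omega)) hord)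
      rw [map_sub, sub_eq_zero] at h2
      rw [hM, h2]
      have hs : PowerSeries.HasSubst (X 0 + X 1 : MvPowerSeries (Fin 2) A) :=
        PowerSeries.HasSubst.of_constantCoeff_zero (by simp)
      have h3 := PowerSeries.coeff_subst_X_zero_add_X_one ((PowerSeries.X : PowerSeries A) ^ M) d
      rw [PowerSeries.subst_pow hs, PowerSeries.subst_X hs] at h3
      rw [h3, hd0, hd1, PowerSeries.coeff_X_pow, if_pos rfl, mul_one, Nat.choose_succ_self_right]
    have := congrArg (coeff d) h.2
    rw [hL, hR, hpow] at this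
    refine (mul_eq_zero.mp this).resolve_right fun hM0 => hm ?_
    exact (CharP.cast_eq_zero_iff A p M).mp hM0

/-- Endomorphisms of the Honda law have coefficients in the field with `p^h` elements. -/
theorem coeff_endo_honda {h : ℕ} (hh : 1 ≤ h) {φ : PowerSeries A}
    (hφ : IsEndo (honda p h A) φ) (m : ℕ) :
    PowerSeries.coeff m φ ^ p ^ h = PowerSeries.coeff m φ := by
  have := ExpChar.prime (R := A) hp.out
  have hc := (IsHom.isFGHom hφ).subst_nsmul p
  rw [← mulSer_eq_nsmul] at hc
  change φ.subst (pSer p (honda p h A)) = PowerSeries.subst φ (pSer p (honda p h A)) at hc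
  rw [pSer_honda p A h hh,
    PowerSeries.subst_pow (PowerSeries.HasSubst.of_constantCoeff_zero' hφ.1),
    PowerSeries.subst_X (PowerSeries.HasSubst.of_constantCoeff_zero' hφ.1)] at hc
  have e := congrArg (PowerSeries.coeff (p ^ h * m)) hc
  rw [PowerSeries.coeff_subst_X_pow (pow_ne_zero _ hp.out.ne_zero), if_pos (dvd_mul_right _ _),
    Nat.mul_div_cancel_left _ (pow_pos hp.out.pos h)] at e
  refine Eq.trans ?_ e.symm
  change _ = coeff (Finsupp.single () (p ^ h * m)) ((φ : MvPowerSeries Unit A) ^ p ^ h)
  rw [← MvPowerSeries.map_iterateFrobenius_expand p hp.out.ne_zero, coeff_map,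
    ← smul_eq_mul, ← Finsupp.smul_single, coeff_expand_smul, iterateFrobenius_def]
  rfl

end CharP

/-- `HomTarget`. -/
theorem homTarget : HomTarget := fun p _ =>
  ⟨fun K _ _ v v' φ h => by
    have hu : IsUnit (p : K) := (Nat.cast_ne_zero.mpr (Fact.out : p.Prime).ne_zero).isUnit
    exact hom_log_linear (hasLog_law p v hu) (hasLog_law p v' hu) (constantCoeff_pLog v)
      (coeff_one_pLog v) (constantCoeff_pLog v') (coeff_one_pLog v') h,
   fun _ _ _ _ _ _ _ h h1 => coeff_hom_of_deriv_zero p h h1,
   fun _ _ _ _ _ _ hh h => coeff_endo_honda p hh h⟩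

end Vale.Agent.P217
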