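import Vale.Agent.P217.Defs
import Vale.Agent.P217.Height

/-!
# P217, module Formal: Hazewinkel's logarithm, laws with a given logarithm, `[m]`
-/

open MvPowerSeries Finset
open scoped Classical

noncomputable section

namespace Vale.Agent.P217

universe u v w

section Coeff

variable (p : ℕ) {A : Type*} [CommRing A] {B : Type*} [CommRing B]

lemma L_zero (v : ℕ → A) : L p v 0 = 1 := by rw [L]

lemma L_succ (v : ℕ → A) (K : ℕ) : L p v (K + 1) =
    ∑ i ∈ range (K + 1), v (i + 1) ^ p ^ (K - i) * (p : A) ^ i * L p v (K - i) := by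
  rw [L, Fin.sum_univ_eq_sum_range (fun i => v (i + 1) ^ p ^ (K - i) * (p : A) ^ i * L p v (K - i))]

lemma map_L (g : A →+* B) (v : ℕ → A) : ∀ K, g (L p v K) = L p (fun i => g (v i)) K := by
  intro K
  induction K using Nat.strong_induction_on with
  | _ K ih =>
    rcases K with _ | K
    · simp [L_zero]
    · rw [L_succ, L_succ, map_sum]
      exact Finset.sum_congr rfl fun i _ => by
        rw [map_mul, map_mul, map_pow, map_pow, map_natCast, ih _ (by omega)]

lemma L_congr {v v' : ℕ → A} : ∀ {K}, (∀ i, 1 ≤ i → i ≤ K → v i = v' i) → L p v K = L p v' K := by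
  intro K
  induction K using Nat.strong_induction_on with
  | _ K ih =>
    intro h
    rcases K with _ | K
    · rw [L_zero, L_zero]
    · rw [L_succ, L_succ]
      refine Finset.sum_congr rfl fun i hi => ?_
      rw [Finset.mem_range] at hi
      rw [h (i + 1) (by omega) (by omega), ih (K - i) (by omega) fun j h1 h2 => h j h1 (by omega)]

lemma L_of_low {v : ℕ → A} {j : ℕ} (hv : ∀ i, 1 ≤ i → i < j → v i = 0) (hp : p ≠ 0) :
    (∀ K, 1 ≤ K → K < j → L p v K = 0) ∧ ∀ K, K + 1 = j → L p v j = (p : A) ^ K * v j := by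
  refine ⟨fun K h1 hK => ?_, fun K hK => ?_⟩
  · obtain ⟨K, rfl⟩ : ∃ K', K = K' + 1 := ⟨K - 1, by omega⟩
    rw [L_succ]
    refine Finset.sum_eq_zero fun i hi => ?_
    rw [Finset.mem_range] at hi
    rw [hv (i + 1) (by omega) (by omega), zero_pow (pow_ne_zero _ hp), zero_mul, zero_mul]
  · subst hK
    rw [L_succ, Finset.sum_range_succ, Finset.sum_eq_zero, zero_add, Nat.sub_self, pow_zero,
      pow_one, L_zero, mul_one, mul_comm]
    intro i hi
    rw [Finset.mem_range] at hi
    rw [hv (i + 1) (by omega) (by omega), zero_pow (pow_ne_zero _ hp), zero_mul, zero_mul]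

end Coeff

section PLog

variable {p : ℕ} [hp : Fact p.Prime] {K : Type*} [CommRing K]

omit hp in
lemma inverse_natCast_eq {c : K} (hpc : (p : K) * c = 1) : Ring.inverse (p : K) = c := by
  have h : (p : K) = ↑(Units.mkOfMulEqOne _ _ hpc) := rfl
  conv_lhs => rw [h]
  rw [Ring.inverse_unit]
  rfl

omit hp in
lemma hazCoeff_eq_L {c : K} (hpc : (p : K) * c = 1) (v : ℕ → K) :
    ∀ J, hazCoeff c v p J = L p v J * c ^ J := by
  intro J
  induction J using Nat.strong_induction_on with
  | _ J ih =>
    rcases J with _ | J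
    · simp [hazCoeff, L_zero]
    · rw [hazCoeff_succ, L_succ, Finset.mul_sum, Finset.sum_mul]
      refine Finset.sum_congr rfl fun i hi => ?_
      rw [Finset.mem_range] at hi
      rw [ih (J - i) (by omega)]
      have e : (p : K) ^ i * c ^ i = 1 := by rw [← mul_pow, hpc, one_pow]
      calc c * (v (i + 1) ^ p ^ (J - i) * (L p v (J - i) * c ^ (J - i)))
          = c * (v (i + 1) ^ p ^ (J - i) * (L p v (J - i) * c ^ (J - i))) *
              ((p : K) ^ i * c ^ i) := by rw [e, mul_one]
        _ = v (i + 1) ^ p ^ (J - i) * (p : K) ^ i * L p v (J - i) *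
              (c * (c ^ (J - i) * c ^ i)) := by ring
        _ = _ := by rw [← pow_add, Nat.sub_add_cancel (by omega), ← pow_succ']

omit hp in
lemma pLog_eq_hazLog {c : K} (hpc : (p : K) * c = 1) (v : ℕ → K) :
    pLog p v = hazLog c v p := by
  ext m
  rw [pLog, hazLog, PowerSeries.coeff_mk, PowerSeries.coeff_mk, inverse_natCast_eq hpc,
    hazCoeff_eq_L hpc]
  simp only [eq_comm]

lemma coeff_pLog_pow (v : ℕ → K) (J : ℕ) :
    PowerSeries.coeff (p ^ J) (pLog p v) = L p v J * Ring.inverse (p : K) ^ J := by
  simp [pLog, Nat.log_pow hp.out.one_lt]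

omit hp in
lemma coeff_pLog_other (v : ℕ → K) {m : ℕ} (hm : ∀ J, m ≠ p ^ J) :
    PowerSeries.coeff m (pLog p v) = 0 := by
  rw [pLog, PowerSeries.coeff_mk, if_neg (hm _)]

lemma constantCoeff_pLog (v : ℕ → K) : PowerSeries.constantCoeff (pLog p v) = 0 := by
  rw [← PowerSeries.coeff_zero_eq_constantCoeff_apply]
  exact coeff_pLog_other v fun J => (pow_ne_zero J hp.out.ne_zero).symm

lemma coeff_one_pLog (v : ℕ → K) : PowerSeries.coeff 1 (pLog p v) = 1 := by
  have h := coeff_pLog_pow (p := p) v 0
  rwa [pow_zero, L_zero, pow_zero, one_mul] at h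

lemma isUnit_coeff_one_pLog (v : ℕ → K) : IsUnit (PowerSeries.coeff 1 (pLog p v)) := by
  rw [coeff_one_pLog]; exact isUnit_one

omit hp in
lemma map_pLog {K' : Type*} [CommRing K'] (g : K →+* K') (hu : IsUnit (p : K)) (v : ℕ → K) :
    PowerSeries.map g (pLog p v) = pLog p fun i => g (v i) := by
  ext m
  rw [PowerSeries.coeff_map, pLog, pLog, PowerSeries.coeff_mk, PowerSeries.coeff_mk]
  obtain ⟨u, hu⟩ := hu
  split_ifs
  · rw [map_mul, map_pow, map_L, ← hu, Ring.inverse_unit]
    have h1 : (p : K') * g ↑u⁻¹ = 1 := by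
      rw [← map_natCast g p, ← hu, ← map_mul, Units.mul_inv, map_one]
    rw [inverse_natCast_eq h1]
  · exact map_zero g

/-- `pLog v` and `pLog v'` agree in degrees `< p^j` if `v` and `v'` agree below `j`. -/
lemma coeff_pLog_congr {v v' : ℕ → K} {j : ℕ} (h : ∀ i, 1 ≤ i → i < j → v i = v' i) {m : ℕ}
    (hm : m < p ^ j) : PowerSeries.coeff m (pLog p v) = PowerSeries.coeff m (pLog p v') := by
  by_cases hJ : ∃ J, m = p ^ J
  · obtain ⟨J, rfl⟩ := hJ
    have hJj : J < j := (Nat.pow_lt_pow_iff_right hp.out.one_lt).mp hm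
    rw [coeff_pLog_pow, coeff_pLog_pow, L_congr p fun i h1 h2 => h i h1 (by omega)]
  · rw [not_exists] at hJ
    rw [coeff_pLog_other _ hJ, coeff_pLog_other _ hJ]

end PLog

section HasLogLemmas

variable {K : Type u} [CommRing K] {F : FormalGroup K} {f : PowerSeries K}

lemma map_subst_one {K' : Type*} [CommRing K'] {τ : Type w} (g : K →+* K') (f : PowerSeries K)
    {a : MvPowerSeries τ K} (ha : constantCoeff a = 0) :
    map g (f.subst a) = (PowerSeries.map g f).subst (map g a) :=
  PowerSeries.map_subst (PowerSeries.HasSubst.of_constantCoeff_zero ha) f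

lemma HasLog.map' {K' : Type*} [CommRing K'] (g : K →+* K') (h : HasLog F f) :
    HasLog (F.map g) (PowerSeries.map g f) := by
  have e := congrArg (MvPowerSeries.map g) h
  rw [map_add, map_subst_one g f F.zero_constantCoeff, map_subst_one g f (constantCoeff_X _),
    map_subst_one g f (constantCoeff_X _), map_X, map_X] at e
  exact e

lemma HasLog.of_map {K' : Type*} [CommRing K'] (g : K →+* K') (hg : Function.Injective g)
    (h : HasLog (F.map g) (PowerSeries.map g f)) : HasLog F f := by
  refine MvPowerSeries.ext fun d => hg ?_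
  rw [← coeff_map, ← coeff_map, map_add, map_subst_one g f F.zero_constantCoeff,
    map_subst_one g f (constantCoeff_X _), map_subst_one g f (constantCoeff_X _), map_X, map_X]
  exact congrArg (coeff d) h

lemma constantCoeff_faddLog {σ : Type w} (F : FormalGroup K) {a b : MvPowerSeries σ K}
    (ha : constantCoeff a = 0) (hb : constantCoeff b = 0) : constantCoeff (fadd F a b) = 0 := by
  have hc : ∀ j : Fin 2, constantCoeff (![a, b] j) = 0 := fun j => by fin_cases j <;> simpa
  exact constantCoeff_subst_eq_zero (hasSubst_of_constantCoeff_zero hc) hc F.zero_constantCoeff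

lemma map_fadd {K' : Type*} [CommRing K'] {σ : Type w} (g : K →+* K') (F : FormalGroup K)
    {a b : MvPowerSeries σ K} (ha : constantCoeff a = 0) (hb : constantCoeff b = 0) :
    map g (fadd F a b) = fadd (F.map g) (map g a) (map g b) := by
  have hc : ∀ j : Fin 2, constantCoeff (![a, b] j) = 0 := fun j => by fin_cases j <;> simpa
  rw [fadd, fadd, map_subst (hasSubst_of_constantCoeff_zero hc)]
  refine congrArg₂ (fun g F => MvPowerSeries.subst g F) (funext fun j => ?_) rfl
  fin_cases j <;> rfl

/-- The logarithm turns `fadd` into addition. -/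
lemma HasLog.subst_fadd (h : HasLog F f) {σ : Type w} {a b : MvPowerSeries σ K}
    (ha : constantCoeff a = 0) (hb : constantCoeff b = 0) :
    f.subst (fadd F a b) = f.subst a + f.subst b := by
  have hc : ∀ j : Fin 2, constantCoeff (![a, b] j) = 0 := fun j => by fin_cases j <;> simpa
  have hs := hasSubst_of_constantCoeff_zero hc
  have e := congrArg (MvPowerSeries.subst ![a, b]) h
  rw [subst_add hs] at e
  unfold fadd PowerSeries.subst
  unfold PowerSeries.subst at e
  rw [subst_comp_subst_apply
      (PowerSeries.HasSubst.of_constantCoeff_zero F.zero_constantCoeff).const hs,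
    subst_comp_subst_apply (PowerSeries.HasSubst.X _).const hs,
    subst_comp_subst_apply (PowerSeries.HasSubst.X _).const hs, subst_X hs, subst_X hs] at e
  exact e

lemma constantCoeff_mulSer (F : FormalGroup K) :
    ∀ m, PowerSeries.constantCoeff (mulSer F m) = 0 := by
  intro m
  induction m with
  | zero => exact map_zero _
  | succ m ih => exact constantCoeff_faddLog F PowerSeries.constantCoeff_X ih

lemma HasLog.subst_mulSer (h : HasLog F f) (hf : PowerSeries.constantCoeff f = 0) :
    ∀ m : ℕ, f.subst (mulSer F m) = (m : K) • f := by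
  intro m
  induction m with
  | zero =>
      rw [mulSer, Nat.cast_zero, zero_smul]
      exact PowerSeries.subst_zero_of_constantCoeff_zero hf
  | succ m ih =>
      rw [mulSer]
      refine (h.subst_fadd PowerSeries.constantCoeff_X (constantCoeff_mulSer F m)).trans ?_
      rw [ih, PowerSeries.X_subst, Nat.cast_succ, add_smul, one_smul, add_comm]

lemma mulSer_eq_nsmul (F : FormalGroup K) : ∀ m, mulSer F m = (m • xPoint F).val := by
  intro m
  induction m with
  | zero => simp [mulSer]
  | succ m ih => rw [mulSer, succ_nsmul', FormalGroup.add_apply, ih]; rfl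

lemma map_mulSer {K' : Type*} [CommRing K'] (g : K →+* K') (F : FormalGroup K) :
    ∀ m, PowerSeries.map g (mulSer F m) = mulSer (F.map g) m := by
  intro m
  induction m with
  | zero => simp [mulSer]
  | succ m ih =>
      rw [mulSer, mulSer, ← ih]
      refine (map_fadd g F PowerSeries.constantCoeff_X (constantCoeff_mulSer F m)).trans ?_
      exact congrArg (fun a => fadd (F.map g) a (PowerSeries.map g (mulSer F m)))
        (PowerSeries.map_X g)

lemma formalGroup_map_map {K' : Type*} [CommRing K'] {K'' : Type*} [CommRing K''] (g : K →+* K')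
    (g' : K' →+* K'') (F : FormalGroup K) : (F.map g).map g' = F.map (g'.comp g) := by
  refine FormalGroup.ext (MvPowerSeries.ext fun d => ?_)
  simp

/-- Series with the same logarithm up to degree `D` agree up to degree `D`. -/
lemma coeff_eq_of_log {σ : Type w} {f f' : PowerSeries K} (hf : PowerSeries.coeff 1 f = 1)
    {D : ℕ} (hff : ∀ m ≤ D, PowerSeries.coeff m f = PowerSeries.coeff m f')
    {a b : MvPowerSeries σ K} (ha : constantCoeff a = 0) (hb : constantCoeff b = 0)
    (h : ∀ e : σ →₀ ℕ, e.degree ≤ D → coeff e (f.subst a) = coeff e (f'.subst b)) :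
    ∀ d : σ →₀ ℕ, d.degree ≤ D → coeff d a = coeff d b := by
  suffices hN : ∀ N ≤ D, ∀ d : σ →₀ ℕ, d.degree = N → coeff d a = coeff d b from
    fun d hd => hN _ hd d rfl
  intro N
  induction N using Nat.strong_induction_on with
  | _ N ih =>
    intro hND d hd
    have h1 := coeff_subst_sub_of_agree f ha hb (d := d)
      fun e he => ih _ (hd ▸ he) (by omega) e rfl
    have h2 : coeff d (f.subst b) = coeff d (f'.subst b) := by
      rw [coeff_subst_sum f hb le_rfl, coeff_subst_sum f' hb le_rfl]
      exact Finset.sum_congr rfl fun m hm => by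
        rw [hff m (by rw [Finset.mem_range] at hm; omega)]
    rw [h d (hd.le.trans hND), h2, sub_self, hf, one_mul, eq_comm, sub_eq_zero] at h1
    exact h1

end HasLogLemmas

end Vale.Agent.P217
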