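import Vale.Agent.P217.Formal.Log
import Vale.Agent.P217.Targets
import Mathlib.Algebra.MvPolynomial.Expand
import Mathlib.RingTheory.Localization.Away.Basic
import Mathlib.FieldTheory.Finite.Basic

/-!
# P217, module Formal: the universal Hazewinkel law exists (`lawTarget`)
-/

open MvPowerSeries Finset
open scoped Classical

noncomputable section

namespace Vale.Agent.P217

universe u

variable (p : ℕ) [hp : Fact p.Prime]

/-- `ℤ[v] → ℚ[v]`. -/
def toQ : MvPolynomial ℕ ℤ →+* MvPolynomial ℕ ℚ := MvPolynomial.map (Int.castRingHom ℚ)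

lemma toQ_injective : Function.Injective toQ :=
  MvPolynomial.map_injective _ (RingHom.injective_int _)

/-- `1 / p` in `ℚ[v]`. -/
def invP : MvPolynomial ℕ ℚ := MvPolynomial.C ((p : ℚ)⁻¹)

lemma p_mul_invP : (p : MvPolynomial ℕ ℚ) * invP p = 1 := by
  rw [invP, ← map_natCast (MvPolynomial.C : ℚ →+* MvPolynomial ℕ ℚ), ← map_mul,
    mul_inv_cancel₀ (Nat.cast_ne_zero.mpr hp.out.ne_zero), map_one]

/-- The truncated universal parameters. -/
def truncV (R : Type*) [CommRing R] (N i : ℕ) : MvPolynomial ℕ R :=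
  if 1 ≤ i ∧ i ≤ N then MvPolynomial.X i else 0

/-- The functional equation with `N` parameters. -/
def truncFE (N : ℕ) : FE (MvPolynomial ℕ ℤ) (MvPolynomial ℕ ℚ) p N where
  ι := toQ
  φ := (MvPolynomial.expand p).toRingHom
  σ := (MvPolynomial.expand p).toRingHom
  s i := invP p * truncV ℚ N (i.val + 1)
  comm a := by
    simp only [toQ, AlgHom.toRingHom_eq_coe, RingHom.coe_coe]
    exact (MvPolynomial.map_expand _ _ _).symm
  frob a := by
    rw [← map_natCast (MvPolynomial.C : ℤ →+* MvPolynomial ℕ ℤ), MvPolynomial.C_dvd_iff_zmod,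
      map_sub, map_pow, AlgHom.toRingHom_eq_coe, RingHom.coe_coe, MvPolynomial.map_expand,
      MvPolynomial.expand_zmod, sub_self]
  denom i := ⟨truncV ℤ N (i.val + 1), by
    rw [← mul_assoc, p_mul_invP, one_mul, truncV, truncV]
    split_ifs <;> simp [toQ]⟩

theorem exists_isULaw : ∃ F, IsULaw p F ∧ F.IsComm := by
  set v : ℕ → MvPolynomial ℕ ℚ := fun i => MvPolynomial.X i with hv
  set f := pLog p v with hf
  have hf0 : PowerSeries.constantCoeff f = 0 := constantCoeff_pLog v
  have hf1 : IsUnit (PowerSeries.coeff 1 f) := isUnit_coeff_one_pLog v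
  set h : MvPowerSeries (Fin 2) (MvPolynomial ℕ ℚ) := f.subst (X 0) + f.subst (X 1) with hh
  have h0 : constantCoeff h = 0 := by
    rw [hh, map_add, constantCoeff_subst_zero f hf0 (constantCoeff_X _),
      constantCoeff_subst_zero f hf0 (constantCoeff_X _), add_zero]
  set Φ := (f.substInvOfIsUnit hf1).subst h with hΦd
  have hΦ0 : constantCoeff Φ = 0 :=
    constantCoeff_subst_zero _ (PowerSeries.constantCoeff_substInvOfIsUnit _ hf1) h0
  have hΦ : f.subst Φ = h := by
    rw [hΦd, ← PowerSeries.subst_comp_subst_apply (PowerSeries.HasSubst.substInvOfIsUnit _ hf1)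
      (PowerSeries.HasSubst.of_constantCoeff_zero h0),
      PowerSeries.subst_substInvOfIsUnit_right _ hf0 hf1,
      PowerSeries.subst_X (PowerSeries.HasSubst.of_constantCoeff_zero h0)]
  -- compare with the truncations
  have key : ∀ D, ∃ G : FormalGroup (MvPolynomial ℕ ℤ),
      ∀ d : Fin 2 →₀ ℕ, d.degree ≤ D → toQ (coeff d G.toPowerSeries) = coeff d Φ := by
    intro D
    set E := truncFE p D
    have hvn : ∀ i, D < i → truncV ℚ D i = 0 := fun i hi => if_neg (by omega)
    have hσv : ∀ i, E.σ (truncV ℚ D i) = truncV ℚ D i ^ p := fun i => by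
      unfold truncV
      split_ifs
      · exact MvPolynomial.expand_X p i
      · rw [map_zero, zero_pow hp.out.ne_zero]
    have hlog : E.IsLog (pLog p (truncV ℚ D)) := by
      rw [pLog_eq_hazLog (p_mul_invP p)]
      exact isLog_hazLog E _ _ (MvPolynomial.expand_C _ _) hσv (fun _ => rfl) hvn
    obtain ⟨G, -, hG⟩ := E.exists_formalGroup toQ_injective hlog
    have hagree : ∀ m ≤ D, PowerSeries.coeff m f = PowerSeries.coeff m (pLog p (truncV ℚ D)) :=
      fun m hm => coeff_pLog_congr (j := D + 1) (fun i h1 h2 => by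
        rw [truncV, if_pos ⟨h1, by omega⟩])
        (lt_of_le_of_lt hm ((Nat.lt_succ_self D).trans (Nat.lt_pow_self hp.out.one_lt)))
    refine ⟨G, fun d hd => ?_⟩
    rw [← coeff_map]
    refine (coeff_eq_of_log (coeff_one_pLog v) hagree hΦ0
      (by rw [constantCoeff_map, G.zero_constantCoeff, map_zero]) (fun e he => ?_) d hd).symm
    rw [hΦ, show map toQ G.toPowerSeries = map E.ι G.toPowerSeries from rfl, hG, hh, map_add,
      map_add]
    have hj : ∀ j : Fin 2, coeff e (f.subst (X j : MvPowerSeries (Fin 2) (MvPolynomial ℕ ℚ))) =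
        coeff e ((pLog p (truncV ℚ D)).subst (X j)) := fun j => by
      rw [coeff_subst_sum f (constantCoeff_X j) le_rfl,
        coeff_subst_sum (pLog p (truncV ℚ D)) (constantCoeff_X j) le_rfl]
      exact Finset.sum_congr rfl fun m hm => by
        rw [hagree m (by rw [Finset.mem_range] at hm; omega)]
    rw [hj, hj]
  choose G hG using key
  obtain ⟨Ψ, hΨ⟩ : ∃ Ψ : MvPowerSeries (Fin 2) (MvPolynomial ℕ ℤ), ∀ d, coeff d Ψ =
      coeff d (G d.degree).toPowerSeries :=
    ⟨fun d => coeff d (G d.degree).toPowerSeries, fun _ => rfl⟩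
  have hmap : map toQ Ψ = Φ := MvPowerSeries.ext fun d => by
    rw [coeff_map, hΨ, hG _ d le_rfl]
  have hΨ0 : constantCoeff Ψ = 0 := by
    rw [← coeff_zero_eq_constantCoeff_apply, hΨ, coeff_zero_eq_constantCoeff_apply]
    exact (G _).zero_constantCoeff
  have hadd : ∀ (τ : Type) (x y : MvPowerSeries τ (MvPolynomial ℕ ℤ)), constantCoeff x = 0 →
      constantCoeff y = 0 → constantCoeff (Ψ.subst ![x, y]) = 0 ∧
        f.subst (map toQ (Ψ.subst ![x, y])) = f.subst (map toQ x) + f.subst (map toQ y) := by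
    intro τ x y hx hy
    have hc : ∀ j : Fin 2, constantCoeff (![x, y] j) = 0 := fun j => by fin_cases j <;> simpa
    refine ⟨constantCoeff_subst_eq_zero (hasSubst_of_constantCoeff_zero hc) hc hΨ0, ?_⟩
    have hc' : ∀ j : Fin 2, constantCoeff (![map toQ x, map toQ y] j) = 0 := fun j => by
      fin_cases j <;> simp [hx, hy]
    have hs' := hasSubst_of_constantCoeff_zero hc'
    have e := congrArg (MvPowerSeries.subst ![map toQ x, map toQ y]) hΦ
    rw [hh, subst_add hs'] at e
    unfold PowerSeries.subst at e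
    rw [subst_comp_subst_apply (PowerSeries.HasSubst.of_constantCoeff_zero hΦ0).const hs',
      subst_comp_subst_apply (PowerSeries.HasSubst.X _).const hs',
      subst_comp_subst_apply (PowerSeries.HasSubst.X _).const hs', subst_X hs', subst_X hs'] at e
    rw [map_subst (hasSubst_of_constantCoeff_zero hc), hmap]
    have e2 : (fun j => map toQ (![x, y] j)) = ![map toQ x, map toQ y] :=
      funext fun j => by fin_cases j <;> rfl
    rw [e2]
    exact e
  have hinj : ∀ {τ : Type} {x y : MvPowerSeries τ (MvPolynomial ℕ ℤ)}, constantCoeff x = 0 →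
      constantCoeff y = 0 → f.subst (map toQ x) = f.subst (map toQ y) → x = y := by
    intro τ x y hx hy hxy
    have := subst_injective hf0 hf1 (by rw [constantCoeff_map, hx, map_zero])
      (by rw [constantCoeff_map, hy, map_zero]) hxy
    exact MvPowerSeries.ext fun d => toQ_injective (by rw [← coeff_map, ← coeff_map, this])
  have hlin : ∀ j : Fin 2, coeff (Finsupp.single j 1) Ψ = 1 := fun j => by
    rw [hΨ]
    fin_cases j
    · exact (G _).lin_coeff_X
    · exact (G _).lin_coeff_Y
  set F : FormalGroup (MvPolynomial ℕ ℤ) :=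
    { toPowerSeries := Ψ
      zero_constantCoeff := hΨ0
      lin_coeff_X := hlin 0
      lin_coeff_Y := hlin 1
      assoc := by
        have hY : ∀ i : Fin 3,
            constantCoeff (X i : MvPowerSeries (Fin 3) (MvPolynomial ℕ ℤ)) = 0 :=
          fun i => constantCoeff_X i
        obtain ⟨a0, a1⟩ := hadd (Fin 3) _ _ (hY 0) (hY 1)
        obtain ⟨b0, b1⟩ := hadd (Fin 3) _ _ (hY 1) (hY 2)
        obtain ⟨c0, c1⟩ := hadd (Fin 3) _ _ a0 (hY 2)
        obtain ⟨d0, d1⟩ := hadd (Fin 3) _ _ (hY 0) b0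
        refine hinj c0 d0 ?_
        rw [c1, d1, a1, b1, add_assoc] }
  refine ⟨F, ?_, ⟨?_⟩⟩
  · change f.subst (map toQ Ψ) = _
    rw [hmap, hΦ]
  · obtain ⟨a0, a1⟩ := hadd (Fin 2) (X 1) (X 0) (constantCoeff_X 1) (constantCoeff_X 0)
    refine hinj hΨ0 a0 ?_
    rw [a1, hmap, hΦ, map_X, map_X, hh, add_comm]

theorem isULaw_uLaw : IsULaw p (uLaw p) := by
  obtain ⟨F, hF, -⟩ := exists_isULaw p
  exact Classical.epsilon_spec (p := IsULaw p) ⟨F, hF⟩

lemma isULaw_unique {F F' : FormalGroup (MvPolynomial ℕ ℤ)} (h : IsULaw p F) (h' : IsULaw p F') :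
    F = F' := by
  refine FormalGroup.ext (MvPowerSeries.ext fun d => toQ_injective ?_)
  rw [← coeff_map, ← coeff_map]
  refine coeff_eq_of_log (coeff_one_pLog (p := p) (fun i => (MvPolynomial.X i : MvPolynomial ℕ ℚ))) (fun _ _ => rfl) ?_ ?_ (fun e _ => ?_) d le_rfl
  · rw [constantCoeff_map, F.zero_constantCoeff, map_zero]
  · rw [constantCoeff_map, F'.zero_constantCoeff, map_zero]
  · exact (congrArg (coeff e) h).trans (congrArg (coeff e) h').symm

instance law_isComm {A : Type*} [CommRing A] (v : ℕ → A) : (law p v).IsComm := by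
  obtain ⟨F, hF, hc⟩ := exists_isULaw p
  have hu : (uLaw p).IsComm := isULaw_unique p hF (isULaw_uLaw p) ▸ hc
  refine ⟨?_⟩
  have hs : HasSubst ![(X 1 : MvPowerSeries (Fin 2) (MvPolynomial ℕ ℤ)), X 0] :=
    hasSubst_of_constantCoeff_zero fun j => by fin_cases j <;> simp
  have e := congrArg (MvPowerSeries.map (MvPolynomial.aeval v : MvPolynomial ℕ ℤ →ₐ[ℤ] A).toRingHom)
    hu.comm
  rw [map_subst hs] at e
  refine e.trans (congrArg₂ (fun g F => MvPowerSeries.subst g F) (funext fun j => ?_) rfl)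
  fin_cases j <;> simp

/-- The law of `v` has Hazewinkel's logarithm whenever `p` is invertible. -/
theorem hasLog_law {K : Type*} [CommRing K] (v : ℕ → K) (hu : IsUnit (p : K)) :
    HasLog (law p v) (pLog p v) := by
  set T := Localization.Away (p : MvPolynomial ℕ ℤ)
  set a := algebraMap (MvPolynomial ℕ ℤ) T with ha
  have hpQ : IsUnit (toQ (p : MvPolynomial ℕ ℤ)) := by
    rw [map_natCast]; exact IsUnit.of_mul_eq_one _ (p_mul_invP p)
  have hpK : IsUnit ((MvPolynomial.aeval v : MvPolynomial ℕ ℤ →ₐ[ℤ] K).toRingHom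
      (p : MvPolynomial ℕ ℤ)) := by
    rw [map_natCast]; exact hu
  have hpT : IsUnit (p : T) := by
    have := IsLocalization.Away.algebraMap_isUnit (S := T) (p : MvPolynomial ℕ ℤ)
    rwa [map_natCast] at this
  set j : T →+* MvPolynomial ℕ ℚ := IsLocalization.Away.lift (p : MvPolynomial ℕ ℤ) hpQ with hj
  set k : T →+* K := IsLocalization.Away.lift (p : MvPolynomial ℕ ℤ) hpK with hk
  have hja : j.comp a = toQ := IsLocalization.Away.lift_comp _ hpQ
  have hka : k.comp a = (MvPolynomial.aeval v : MvPolynomial ℕ ℤ →ₐ[ℤ] K).toRingHom :=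
    IsLocalization.Away.lift_comp _ hpK
  have hinj : Function.Injective j := by
    intro x y hxy
    obtain ⟨⟨x1, s1⟩, hx⟩ := IsLocalization.surj (Submonoid.powers (p : MvPolynomial ℕ ℤ)) x
    obtain ⟨⟨y1, t1⟩, hy⟩ := IsLocalization.surj (Submonoid.powers (p : MvPolynomial ℕ ℤ)) y
    simp only at hx hy
    have hs1 : IsUnit (a (s1 : MvPolynomial ℕ ℤ)) := IsLocalization.map_units T s1
    have ht1 : IsUnit (a (t1 : MvPolynomial ℕ ℤ)) := IsLocalization.map_units T t1
    refine (hs1.mul ht1).mul_left_inj.mp ?_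
    have hx' : j x * toQ (s1 : MvPolynomial ℕ ℤ) = toQ x1 := by
      rw [← hja, RingHom.comp_apply, RingHom.comp_apply, ← map_mul, hx]
    have hy' : j y * toQ (t1 : MvPolynomial ℕ ℤ) = toQ y1 := by
      rw [← hja, RingHom.comp_apply, RingHom.comp_apply, ← map_mul, hy]
    have e : x1 * (t1 : MvPolynomial ℕ ℤ) = y1 * (s1 : MvPolynomial ℕ ℤ) := toQ_injective (by
      rw [map_mul, map_mul, ← hx', ← hy', hxy]; ring)
    calc x * (a (s1 : MvPolynomial ℕ ℤ) * a (t1 : MvPolynomial ℕ ℤ))
        = a x1 * a (t1 : MvPolynomial ℕ ℤ) := by rw [← mul_assoc, ha, hx]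
      _ = a y1 * a (s1 : MvPolynomial ℕ ℤ) := by rw [← map_mul, e, map_mul]
      _ = y * (a (s1 : MvPolynomial ℕ ℤ) * a (t1 : MvPolynomial ℕ ℤ)) := by
          rw [ha, ← hy]; ring
  have hT : HasLog ((uLaw p).map a) (pLog p fun i => a (MvPolynomial.X i)) := by
    refine HasLog.of_map j hinj ?_
    rw [formalGroup_map_map, hja, map_pLog j hpT]
    have e : (fun i => j (a (MvPolynomial.X i))) = fun i => (MvPolynomial.X i : MvPolynomial ℕ ℚ) :=
      funext fun i => by rw [← RingHom.comp_apply, hja, toQ, MvPolynomial.map_X]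
    rw [e]
    exact isULaw_uLaw p
  have := hT.map' k
  rw [formalGroup_map_map, hka, map_pLog k hpT] at this
  have e : (fun i => k (a (MvPolynomial.X i))) = v :=
    funext fun i => by rw [← RingHom.comp_apply, hka]; exact MvPolynomial.aeval_X v i
  rw [e] at this
  exact this

/-- `LawTarget`. -/
theorem lawTarget : LawTarget := fun p _ =>
  ⟨fun _ _ v => law_isComm p v, fun _ _ v hu => hasLog_law p v hu⟩

end Vale.Agent.P217
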