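import Vale.Agent.P217.Formal.Law
import Mathlib.Data.Nat.Multiplicity

/-!
# P217, module Formal: low degree behaviour of `law p v` and of `[p]` (`lowDegreeTarget`)

Everything is proved in a universal polynomial ring inside its rationalisation and then specialised.
-/

open MvPowerSeries Finset
open scoped Classical

noncomputable section

namespace Vale.Agent.P217

universe u v w

section Functorial

variable (p : ℕ) {A : Type u} [CommRing A] {B : Type v} [CommRing B]

lemma map_law (g : A →+* B) (v : ℕ → A) : (law p v).map g = law p fun i => g (v i) := by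
  rw [law, law, formalGroup_map_map]
  congr 1
  refine MvPolynomial.ringHom_ext (fun r => ?_) fun i => ?_ <;> simp

lemma map_pSer (g : A →+* B) (v : ℕ → A) :
    PowerSeries.map g (pSer p (law p v)) = pSer p (law p fun i => g (v i)) := by
  rw [pSer, pSer, map_mulSer, map_law]

lemma deg_eq_degree {σ : Type*} (d : σ →₀ ℕ) : deg d = d.degree := rfl

lemma degree_fin_two (d : Fin 2 →₀ ℕ) : d.degree = d 0 + d 1 := by
  rw [Finsupp.degree_eq_sum, Fin.sum_univ_two]

lemma map_cPoly (g : A →+* B) (j : ℕ) (d : Fin 2 →₀ ℕ) :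
    g (coeff d (cPoly p A j)) = coeff d (cPoly p B j) := by
  change g (cPoly p A j d) = cPoly p B j d
  unfold cPoly
  split_ifs <;> simp

end Functorial

/-- A formal group law is `X₀ + X₁` up to degree one. -/
lemma coeff_formalGroup_low {K : Type u} [CommRing K] (F : FormalGroup K) (e : Fin 2 →₀ ℕ)
    (he : e.degree < 2) :
    coeff e F.toPowerSeries = coeff e (X 0 + X 1 : MvPowerSeries (Fin 2) K) := by
  rw [degree_fin_two] at he
  rcases (by omega : (e 0 = 0 ∧ e 1 = 0) ∨ (e 0 = 1 ∧ e 1 = 0) ∨ (e 0 = 0 ∧ e 1 = 1)) with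
    ⟨a, b⟩ | ⟨a, b⟩ | ⟨a, b⟩
  · obtain rfl : e = 0 := by ext i; fin_cases i <;> simp [a, b]
    rw [coeff_zero_eq_constantCoeff_apply, coeff_zero_eq_constantCoeff_apply,
      F.zero_constantCoeff, map_add, constantCoeff_X, constantCoeff_X, add_zero]
  · obtain rfl : e = Finsupp.single 0 1 := by ext i; fin_cases i <;> simp [a, b]
    rw [F.lin_coeff_X, map_add, coeff_index_single_X, coeff_index_single_X]
    simp
  · obtain rfl : e = Finsupp.single 1 1 := by ext i; fin_cases i <;> simp [a, b]
    rw [F.lin_coeff_Y, map_add, coeff_index_single_X, coeff_index_single_X]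
    simp

variable {p : ℕ} [hp : Fact p.Prime]

/-- `(x + y)^q - x^q - y^q = p · cPoly` for `q = p^j`. -/
lemma coeff_cocycle {K : Type u} [CommRing K] (j : ℕ) (d : Fin 2 →₀ ℕ) :
    coeff d ((X 0 + X 1) ^ p ^ j - X 0 ^ p ^ j - X 1 ^ p ^ j : MvPowerSeries (Fin 2) K) =
      (p : K) * coeff d (cPoly p K j) := by
  set q := p ^ j with hq
  have hterm : ∀ m, coeff d (X 0 ^ m * X 1 ^ (q - m) : MvPowerSeries (Fin 2) K) =
      if d 0 = m ∧ d 1 = q - m then 1 else 0 := fun m => by
    rw [X_pow_eq, X_pow_eq, monomial_mul_monomial, one_mul, coeff_monomial]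
    refine if_congr ⟨fun h => by subst h; simp, fun h => ?_⟩ rfl rfl
    ext i; fin_cases i <;> simp [h.1, h.2]
  have h0 : coeff d (X 0 ^ q : MvPowerSeries (Fin 2) K) = if d 0 = q ∧ d 1 = 0 then 1 else 0 := by
    simpa using hterm q
  have h1 : coeff d (X 1 ^ q : MvPowerSeries (Fin 2) K) = if d 0 = 0 ∧ d 1 = q then 1 else 0 := by
    simpa using hterm 0
  have hsum : coeff d ((X 0 + X 1) ^ q : MvPowerSeries (Fin 2) K) =
      if d 0 + d 1 = q then (q.choose (d 0) : K) else 0 := by
    rw [add_pow, map_sum]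
    have e : ∀ m, coeff d (X 0 ^ m * X 1 ^ (q - m) * (q.choose m : MvPowerSeries (Fin 2) K)) =
        if d 0 = m ∧ d 1 = q - m then (q.choose m : K) else 0 := fun m => by
      rw [← map_natCast (C : K →+* MvPowerSeries (Fin 2) K) (q.choose m), mul_comm, coeff_C_mul,
        hterm, mul_ite, mul_one, mul_zero]
    simp only [e]
    split_ifs with h
    · rw [Finset.sum_eq_single (d 0) (fun m _ hm => if_neg fun hh => hm hh.1.symm)
        (fun hh => absurd (Finset.mem_range.mpr (by omega)) hh), if_pos ⟨rfl, by omega⟩]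
    · refine Finset.sum_eq_zero fun m hm => if_neg fun hh => h ?_
      rw [Finset.mem_range] at hm
      omega
  rw [map_sub, map_sub, hsum, h0, h1]
  change _ = (p : K) * cPoly p K j d
  unfold cPoly
  have hq0 : 0 < q := pow_pos hp.out.pos _
  by_cases hd : d 0 + d 1 = q
  · rw [if_pos hd]
    by_cases ha : d 0 = 0
    · rw [if_neg (by omega), if_pos ⟨ha, by omega⟩, if_neg (fun h => h.2.1 ha), ha]
      simp
    by_cases hb : d 1 = 0
    · rw [if_pos ⟨by omega, hb⟩, if_neg (by omega), if_neg (fun h => h.2.2 hb),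
        show d 0 = q by omega]
      simp
    · rw [if_neg (fun h => hb h.2), if_neg (fun h => ha h.1), if_pos ⟨hd, ha, hb⟩, sub_zero,
        sub_zero, ← Nat.cast_mul,
        Nat.mul_div_cancel' (hp.out.dvd_choose_pow ha (by omega))]
  · rw [if_neg hd, if_neg (by omega), if_neg (by omega), if_neg (fun h => hd h.1)]
    simp

section OverK

variable {K : Type u} [CommRing K]

omit hp in
lemma L_succ_sub {V V' : ℕ → K} {k : ℕ} (hag : ∀ i, 1 ≤ i → i < k + 1 → V i = V' i) :
    L p V (k + 1) - L p V' (k + 1) = (V (k + 1) - V' (k + 1)) * (p : K) ^ k := by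
  rw [L_succ, L_succ, Finset.sum_range_succ, Finset.sum_range_succ,
    Finset.sum_congr rfl (g := fun i => V' (i + 1) ^ p ^ (k - i) * (p : K) ^ i * L p V' (k - i))
      fun i hi => by
        rw [Finset.mem_range] at hi
        rw [hag (i + 1) (by omega) (by omega),
          L_congr p fun i' h1 h2 => hag i' h1 (lt_of_le_of_lt h2 (by omega))]]
  rw [Nat.sub_self, L_zero, L_zero, pow_zero, pow_one, pow_one, mul_one, mul_one]
  ring

/-- Laws whose parameters agree below `j` differ in degree `p^j` by the cocycle. -/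
lemma law_coeff_sub {c : K} (hpc : (p : K) * c = 1) {V V' : ℕ → K} {j : ℕ} (hj : 1 ≤ j)
    (hag : ∀ i, 1 ≤ i → i < j → V i = V' i) (d : Fin 2 →₀ ℕ) (hd : d.degree ≤ p ^ j) :
    coeff d (law p V).toPowerSeries - coeff d (law p V').toPowerSeries =
      -(V j - V' j) * coeff d (cPoly p K j) := by
  have hu : IsUnit (p : K) := IsUnit.of_mul_eq_one _ hpc
  have hF := hasLog_law p V hu
  have hF' := hasLog_law p V' hu
  set f := pLog p V with hfdef
  set f' := pLog p V' with hfdef'
  set F := (law p V).toPowerSeries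
  set F' := (law p V').toPowerSeries
  set q := p ^ j with hq
  have hF0 : constantCoeff F = 0 := (law p V).zero_constantCoeff
  have hF0' : constantCoeff F' = 0 := (law p V').zero_constantCoeff
  have hagree : ∀ m < q, PowerSeries.coeff m f = PowerSeries.coeff m f' :=
    fun m hm => coeff_pLog_congr hag hm
  have hΔ : PowerSeries.coeff q f - PowerSeries.coeff q f' = c * (V j - V' j) := by
    obtain ⟨k, rfl⟩ : ∃ k, j = k + 1 := ⟨j - 1, by omega⟩
    rw [hfdef, hfdef', hq, coeff_pLog_pow, coeff_pLog_pow, inverse_natCast_eq hpc, ← sub_mul,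
      L_succ_sub hag]
    calc (V (k + 1) - V' (k + 1)) * (p : K) ^ k * c ^ (k + 1)
        = (V (k + 1) - V' (k + 1)) * ((p : K) * c) ^ k * c := by ring
      _ = _ := by rw [hpc, one_pow]; ring
  have hdiff : ∀ a : MvPowerSeries (Fin 2) K, constantCoeff a = 0 →
      coeff d (f.subst a) - coeff d (f'.subst a) =
        c * (V j - V' j) * coeff d (a ^ q) := fun a ha => by
    rw [coeff_subst_sum f ha hd, coeff_subst_sum f' ha hd, ← Finset.sum_sub_distrib,
      Finset.sum_eq_single q, ← sub_mul, hΔ]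
    · intro m hm hne
      rw [Finset.mem_range] at hm
      rw [hagree m (by omega), sub_self]
    · exact fun h => absurd (Finset.mem_range.mpr (Nat.lt_succ_self q)) h
  have hlow : ∀ e : Fin 2 →₀ ℕ, e.degree < q → coeff e F = coeff e F' := by
    intro e he
    refine coeff_eq_of_log (f := f) (f' := f') (coeff_one_pLog V) (D := q - 1)
      (fun m hm => hagree m (by omega)) hF0 hF0' (fun e' he' => ?_) e (by omega)
    have h1 : coeff e' (f.subst F) = _ := congrArg (coeff e') hF
    have h2 : coeff e' (f'.subst F') = _ := congrArg (coeff e') hF'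
    rw [h1, h2, map_add, map_add]
    have hx : ∀ i : Fin 2, coeff e' (f.subst (X i : MvPowerSeries (Fin 2) K)) =
        coeff e' (f'.subst (X i)) := fun i => by
      rw [coeff_subst_sum f (constantCoeff_X i) le_rfl,
        coeff_subst_sum f' (constantCoeff_X i) le_rfl]
      exact Finset.sum_congr rfl fun m hm => by
        rw [hagree m (by rw [Finset.mem_range] at hm; omega)]
    exact congrArg₂ (· + ·) (hx 0) (hx 1)
  have h1 : coeff d (f.subst F) - coeff d (f.subst F') = coeff d F - coeff d F' := by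
    rw [coeff_subst_sub_of_agree f hF0 hF0' (fun e he => hlow e (lt_of_lt_of_le he hd)),
      coeff_one_pLog, one_mul]
  have h2 : coeff d (f.subst F) = _ := congrArg (coeff d) hF
  have h3 : coeff d (f'.subst F') = _ := congrArg (coeff d) hF'
  have hpow : coeff d (F' ^ q) = coeff d ((X 0 + X 1) ^ q : MvPowerSeries (Fin 2) K) := by
    obtain ⟨m, hm⟩ : ∃ m, q = m + 1 := ⟨q - 1, by have := pow_pos hp.out.pos j; omega⟩
    have hord := le_order_pow_sub_pow hF0' (by simp) (D := 2) (coeff_formalGroup_low (law p V')) m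
    rw [← hm] at hord
    have := coeff_of_lt_order
      (lt_of_lt_of_le (Nat.cast_lt.mpr (show d.degree < 2 + m by omega)) hord)
    rwa [map_sub, sub_eq_zero] at this
  have e1 : coeff d F - coeff d F' =
      -(c * (V j - V' j)) * coeff d ((X 0 + X 1) ^ q - X 0 ^ q - X 1 ^ q) := by
    have dF := hdiff F' hF0'
    rw [← h1, h2, map_add, map_sub, map_sub, ← hpow]
    rw [h3, map_add] at dF
    linear_combination -dF + hdiff (X 0) (constantCoeff_X _) + hdiff (X 1) (constantCoeff_X _)
  rw [e1, coeff_cocycle]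
  linear_combination (-(V j - V' j) * coeff d (cPoly p K j)) * hpc

/-- `[p]` in degree `p^j` when the parameters vanish below `j`. -/
lemma coeff_pSer_of_low {c : K} (hpc : (p : K) * c = 1) {V : ℕ → K} {j : ℕ} (hj : 1 ≤ j)
    (hV : ∀ i, 1 ≤ i → i < j → V i = 0) :
    PowerSeries.coeff (p ^ j) (pSer p (law p V)) = V j - V j * (p : K) ^ (p ^ j - 1) := by
  have hu : IsUnit (p : K) := IsUnit.of_mul_eq_one _ hpc
  set f := pLog p V with hfdef
  set ψ := pSer p (law p V) with hψdef
  have hψ0 : PowerSeries.constantCoeff ψ = 0 := constantCoeff_mulSer _ _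
  have hlog : f.subst ψ = (p : K) • f :=
    (hasLog_law p V hu).subst_mulSer (constantCoeff_pLog V) p
  have hψ1 : PowerSeries.coeff 1 ψ = (p : K) := by
    have h := coeff_subst_lead_left le_rfl f (a := ψ) fun m hm => by
      rw [Nat.lt_one_iff.mp hm, PowerSeries.coeff_zero_eq_constantCoeff_apply, hψ0]
    rw [hlog, coeff_one_pLog, one_mul, map_smul, coeff_one_pLog, smul_eq_mul, mul_one] at h
    exact h.symm
  set q := p ^ j with hq
  have hq2 : 2 ≤ q := le_trans hp.out.two_le (Nat.le_self_pow (by omega) p)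
  have hfq : PowerSeries.coeff q f = c * V j := by
    obtain ⟨k, rfl⟩ : ∃ k, j = k + 1 := ⟨j - 1, by omega⟩
    rw [hfdef, hq, coeff_pLog_pow, inverse_natCast_eq hpc,
      (L_of_low p hV hp.out.ne_zero).2 k rfl]
    calc (p : K) ^ k * V (k + 1) * c ^ (k + 1) = ((p : K) * c) ^ k * (c * V (k + 1)) := by ring
      _ = _ := by rw [hpc, one_pow, one_mul]
  have hmid : ∀ m, m ≠ 1 → m < q → PowerSeries.coeff m f = 0 := by
    intro m h1 hm
    by_cases hJ : ∃ J, m = p ^ J
    · obtain ⟨J, rfl⟩ := hJ
      have hJ1 : 1 ≤ J := by rcases J with _ | J <;> simp_all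
      have hJj : J < j := (Nat.pow_lt_pow_iff_right hp.out.one_lt).mp hm
      rw [hfdef, coeff_pLog_pow, (L_of_low p hV hp.out.ne_zero).1 J hJ1 hJj, zero_mul]
    · rw [not_exists] at hJ
      exact coeff_pLog_other _ hJ
  have hψq : PowerSeries.coeff q (ψ ^ q) = (p : K) ^ q := by
    have h := coeff_subst_lead_right (q := q) (b := (PowerSeries.X : PowerSeries K) ^ q)
      (fun m hm => by rw [PowerSeries.coeff_X_pow, if_neg hm.ne]) hψ0
    rw [PowerSeries.subst_pow (PowerSeries.HasSubst.of_constantCoeff_zero' hψ0),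
      PowerSeries.subst_X (PowerSeries.HasSubst.of_constantCoeff_zero' hψ0), hψ1,
      PowerSeries.coeff_X_pow, if_pos rfl, one_mul] at h
    exact h
  have h := coeff_subst_sum f (a := (ψ : MvPowerSeries Unit K)) hψ0 (D := q)
    (d := Finsupp.single () q) (by rw [Finsupp.degree_single])
  rw [Finset.sum_range_succ, Finset.sum_eq_single 1] at h
  rotate_left
  · intro m hm h1
    rw [hmid m h1 (Finset.mem_range.mp hm), zero_mul]
  · exact fun h1 => absurd (Finset.mem_range.mpr (by omega)) h1
  change PowerSeries.coeff q (f.subst ψ) = PowerSeries.coeff 1 f * PowerSeries.coeff q (ψ ^ 1) +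
    PowerSeries.coeff q f * PowerSeries.coeff q (ψ ^ q) at h
  rw [hlog, map_smul, smul_eq_mul, coeff_one_pLog, one_mul, pow_one, hfq, hψq] at h
  obtain ⟨r, hr⟩ : ∃ r, q = r + 1 := ⟨q - 1, by omega⟩
  rw [hr] at h
  rw [hr, Nat.add_sub_cancel]
  linear_combination -h + (V j - V j * (p : K) ^ r) * hpc

end OverK

/-- A series supported on multiples of `q`. -/
def SuppMul {K : Type*} [CommRing K] (q : ℕ) (a : PowerSeries K) : Prop :=
  ∀ m, ¬ q ∣ m → PowerSeries.coeff m a = 0

omit hp in
lemma SuppMul.pow {K : Type*} [CommRing K] {q : ℕ} {a : PowerSeries K} (h : SuppMul q a) :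
    ∀ k : ℕ, SuppMul q (a ^ k) := by
  intro k
  induction k with
  | zero =>
      intro m hm
      rw [pow_zero, PowerSeries.coeff_one, if_neg]
      rintro rfl
      exact hm (dvd_zero q)
  | succ k ih =>
      intro m hm
      rw [pow_succ, PowerSeries.coeff_mul]
      refine Finset.sum_eq_zero fun x hx => ?_
      rw [Finset.HasAntidiagonal.mem_antidiagonal] at hx
      by_cases h1 : q ∣ x.1
      · rw [h x.2 (fun h2 => hm (hx ▸ h1.add h2)), mul_zero]
      · rw [ih x.1 h1, zero_mul]

/-- `[p]` of parameters vanishing below `h` is supported on multiples of `p^h` modulo `p`. -/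
lemma pSer_dvd_of_low {P : Type u} [CommRing P] {K : Type v} [CommRing K] {ι : P →+* K}
    (hι : Function.Injective ι) {c : K} (hpc : (p : K) * c = 1) {v : ℕ → P} {h : ℕ}
    (hv : ∀ i, 1 ≤ i → i < h → v i = 0) :
    ∀ m, ¬ p ^ h ∣ m → (p : P) ∣ PowerSeries.coeff m (pSer p (law p v)) := by
  set q := p ^ h with hq
  set ψ := pSer p (law p v) with hψdef
  have hψ0 : PowerSeries.constantCoeff ψ = 0 := constantCoeff_mulSer _ _
  set V : ℕ → K := fun i => ι (v i) with hVdef
  set f := pLog p V with hfdef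
  have hlog : f.subst (PowerSeries.map ι ψ) = (p : K) • f := by
    rw [hψdef, map_pSer]
    exact (hasLog_law p V (IsUnit.of_mul_eq_one _ hpc)).subst_mulSer (constantCoeff_pLog V) p
  have hV : ∀ i, 1 ≤ i → i < h → V i = 0 := fun i a b => by rw [hVdef]; simp [hv i a b]
  have hfm : ∀ m, ¬ q ∣ m → ∃ a, PowerSeries.coeff m f = ι a := by
    intro m hm
    by_cases hJ : ∃ J, m = p ^ J
    · obtain ⟨J, rfl⟩ := hJ
      have hJh : J < h := lt_of_not_ge fun hh => hm (pow_dvd_pow p hh)
      rcases Nat.eq_zero_or_pos J with rfl | hJ1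
      · exact ⟨1, by rw [pow_zero, coeff_one_pLog, map_one]⟩
      · exact ⟨0, by rw [hfdef, coeff_pLog_pow, (L_of_low p hV hp.out.ne_zero).1 J hJ1 hJh,
          zero_mul, map_zero]⟩
    · rw [not_exists] at hJ
      exact ⟨0, by rw [coeff_pLog_other _ hJ, map_zero]⟩
  intro m
  induction m using Nat.strong_induction_on with
  | _ m ih =>
    intro hm
    set γ : PowerSeries P :=
      PowerSeries.mk fun k => if k < m ∧ ¬ q ∣ k then 0 else PowerSeries.coeff k ψ with hγdef
    set β : PowerSeries P :=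
      PowerSeries.mk fun k => if q ∣ k then PowerSeries.coeff k ψ else 0 with hβdef
    have hγ0 : PowerSeries.constantCoeff γ = 0 := by
      rw [← PowerSeries.coeff_zero_eq_constantCoeff_apply, hγdef, PowerSeries.coeff_mk]
      split_ifs <;> simp [hψ0]
    have hβ0 : PowerSeries.constantCoeff β = 0 := by
      rw [← PowerSeries.coeff_zero_eq_constantCoeff_apply, hβdef, PowerSeries.coeff_mk]
      simp [hψ0]
    have hψγ : (p : MvPowerSeries Unit P) ^ (0 + 1) ∣ (ψ : MvPowerSeries Unit P) - γ := by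
      rw [zero_add, pow_one]
      refine natCast_dvd_series fun e => ?_
      obtain ⟨k, rfl⟩ : ∃ k, e = Finsupp.single () k := ⟨e (), Finsupp.unique_single e⟩
      change (p : P) ∣ PowerSeries.coeff k (ψ - γ)
      rw [map_sub, hγdef, PowerSeries.coeff_mk]
      split_ifs with hk
      · rw [sub_zero]; exact ih k hk.1 hk.2
      · rw [sub_self]; exact dvd_zero _
    -- first step: `f ∘ ψ ≡ f ∘ γ`
    have hterm : ∀ k, ∃ b : P, PowerSeries.coeff k f *
        (PowerSeries.coeff m (PowerSeries.map ι ψ ^ k) -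
          PowerSeries.coeff m (PowerSeries.map ι γ ^ k)) = (p : K) * ι b := by
      intro k
      by_cases hJ : ∃ J, k = p ^ J
      · obtain ⟨J, rfl⟩ := hJ
        have hd := dvd_pow_sub_pow' p 0 hψγ (dvd_refl (p ^ J))
        rw [← Nat.cast_pow] at hd
        obtain ⟨b, hb⟩ := dvd_coeff_of_natCast_dvd hd (Finsupp.single () m)
        change PowerSeries.coeff m (ψ ^ p ^ J - γ ^ p ^ J) = _ at hb
        refine ⟨L p v J * b, ?_⟩
        rw [← map_pow, ← map_pow, PowerSeries.coeff_map, PowerSeries.coeff_map, ← map_sub,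
          ← map_sub, hb, hfdef, coeff_pLog_pow, inverse_natCast_eq hpc, hVdef, ← map_L, map_mul,
          map_mul, map_natCast, Nat.cast_pow, zero_add, pow_succ]
        calc ι (L p v J) * c ^ J * ((p : K) ^ J * (p : K) * ι b)
            = ((p : K) * c) ^ J * ((p : K) * (ι (L p v J) * ι b)) := by ring
          _ = _ := by rw [hpc, one_pow, one_mul]
      · rw [not_exists] at hJ
        exact ⟨0, by rw [coeff_pLog_other _ hJ, zero_mul, map_zero, mul_zero]⟩
    choose b hb using hterm
    have hψ0' : PowerSeries.constantCoeff (PowerSeries.map ι ψ) = 0 := by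
      rw [← PowerSeries.coeff_zero_eq_constantCoeff_apply, PowerSeries.coeff_map,
        PowerSeries.coeff_zero_eq_constantCoeff_apply, hψ0, map_zero]
    have hγ0' : PowerSeries.constantCoeff (PowerSeries.map ι γ) = 0 := by
      rw [← PowerSeries.coeff_zero_eq_constantCoeff_apply, PowerSeries.coeff_map,
        PowerSeries.coeff_zero_eq_constantCoeff_apply, hγ0, map_zero]
    have hβ0' : PowerSeries.constantCoeff (PowerSeries.map ι β) = 0 := by
      rw [← PowerSeries.coeff_zero_eq_constantCoeff_apply, PowerSeries.coeff_map,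
        PowerSeries.coeff_zero_eq_constantCoeff_apply, hβ0, map_zero]
    have hdeg : (Finsupp.single () m).degree ≤ m := by rw [Finsupp.degree_single]
    have e1 : PowerSeries.coeff m (f.subst (PowerSeries.map ι ψ)) -
        PowerSeries.coeff m (f.subst (PowerSeries.map ι γ)) =
          (p : K) * ι (∑ k ∈ range (m + 1), b k) := by
      change coeff (Finsupp.single () m) _ - coeff (Finsupp.single () m) _ = _
      rw [coeff_subst_sum f hψ0' hdeg, coeff_subst_sum f hγ0' hdeg, ← Finset.sum_sub_distrib,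
        map_sum, Finset.mul_sum]
      exact Finset.sum_congr rfl fun k _ => by rw [← mul_sub]; exact hb k
    -- second step: `f ∘ γ` at `m` is `ψ m`
    have e2 : PowerSeries.coeff m (f.subst (PowerSeries.map ι γ)) -
        PowerSeries.coeff m (f.subst (PowerSeries.map ι β)) =
          ι (PowerSeries.coeff m ψ) := by
      have := coeff_subst_sub_of_agree f (a := (PowerSeries.map ι γ : MvPowerSeries Unit K))
        (b := (PowerSeries.map ι β : MvPowerSeries Unit K)) hγ0' hβ0'
        (d := Finsupp.single () m) fun e he => by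
          obtain ⟨k, rfl⟩ : ∃ k, e = Finsupp.single () k := ⟨e (), Finsupp.unique_single e⟩
          rw [Finsupp.degree_single, Finsupp.degree_single] at he
          change PowerSeries.coeff k (PowerSeries.map ι γ) = PowerSeries.coeff k (PowerSeries.map ι β)
          rw [PowerSeries.coeff_map, PowerSeries.coeff_map, hγdef, hβdef, PowerSeries.coeff_mk,
            PowerSeries.coeff_mk]
          by_cases hk : q ∣ k <;> simp [hk, he]
      change PowerSeries.coeff m _ - PowerSeries.coeff m _ = PowerSeries.coeff 1 f *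
        (PowerSeries.coeff m (PowerSeries.map ι γ) - PowerSeries.coeff m (PowerSeries.map ι β))
        at this
      rw [this, coeff_one_pLog, one_mul, PowerSeries.coeff_map, PowerSeries.coeff_map, hγdef,
        hβdef, PowerSeries.coeff_mk, PowerSeries.coeff_mk, if_neg (fun hh => lt_irrefl m hh.1),
        if_neg hm, map_zero, sub_zero]
    have e3 : PowerSeries.coeff m (f.subst (PowerSeries.map ι β)) = 0 := by
      have hs : SuppMul q (PowerSeries.map ι β) := fun k hk => by
        rw [PowerSeries.coeff_map, hβdef, PowerSeries.coeff_mk, if_neg hk, map_zero]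
      change coeff (Finsupp.single () m) _ = 0
      rw [coeff_subst_sum f hβ0' hdeg]
      refine Finset.sum_eq_zero fun k _ => ?_
      exact mul_eq_zero_of_right _ (hs.pow k m hm)
    obtain ⟨a, ha⟩ := hfm m hm
    refine ⟨a - ∑ k ∈ range (m + 1), b k, hι ?_⟩
    rw [hlog, map_smul, smul_eq_mul, ha] at e1
    rw [e3, sub_zero] at e2
    rw [map_mul, map_natCast, map_sub]
    linear_combination -e1 - e2

/-! ### The target -/

section Target

variable (p) (A : Type u) [CommRing A]

/-- `[p]` of the Honda law in characteristic `p`. -/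
lemma pSer_honda (n : ℕ) (hn : 1 ≤ n) [CharP A p] :
    pSer p (honda p n A) = (PowerSeries.X : PowerSeries A) ^ p ^ n := by
  have hpQ : (p : ℚ) * (p : ℚ)⁻¹ = 1 := mul_inv_cancel₀ (Nat.cast_ne_zero.mpr hp.out.ne_zero)
  let E : FE ℤ ℚ p n :=
    { ι := Int.castRingHom ℚ
      φ := RingHom.id ℤ
      σ := RingHom.id ℚ
      s := fun i => if i.val + 1 = n then (p : ℚ)⁻¹ else 0
      comm := fun _ => rfl
      frob := fun a => by
        rw [RingHom.id_apply, ← ZMod.intCast_zmod_eq_zero_iff_dvd]
        push_cast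
        rw [ZMod.pow_card, sub_self]
      denom := fun i => by
        by_cases hi : i.val + 1 = n
        · exact ⟨1, by rw [if_pos hi, hpQ, map_one]⟩
        · exact ⟨0, by rw [if_neg hi, mul_zero, map_zero]⟩ }
  have hmap : (fun i => Int.castRingHom ℚ (vHonda n i)) = fun i => if i = n then (1 : ℚ) else 0 :=
    funext fun i => by simp [vHonda, apply_ite (Int.castRingHom ℚ)]
  have hlog : (hazLog ((p : ℚ)⁻¹) (fun i => if i = n then (1 : ℚ) else 0) p).subst
      (PowerSeries.map E.ι (pSer p (honda p n ℤ))) =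
        (p : ℚ) • hazLog ((p : ℚ)⁻¹) (fun i => if i = n then (1 : ℚ) else 0) p := by
    rw [← pLog_eq_hazLog hpQ, honda, show E.ι = Int.castRingHom ℚ from rfl, map_pSer, hmap]
    exact (hasLog_law p _ (IsUnit.of_mul_eq_one _ hpQ)).subst_mulSer (constantCoeff_pLog _) p
  have key := pSeries_congr_special E (RingHom.injective_int _) hn _ rfl hpQ (fun _ => rfl)
    (ψ := pSer p (honda p n ℤ)) (constantCoeff_mulSer _ _) hlog
  have hA : PowerSeries.map (Int.castRingHom A) (pSer p (honda p n ℤ)) = pSer p (honda p n A) := by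
    rw [honda, honda, map_pSer]
    congr 2
    funext i
    simp [vHonda, apply_ite (Int.castRingHom A)]
  ext m
  obtain ⟨t, ht⟩ := key m
  rw [← hA, ← PowerSeries.map_X (Int.castRingHom A), ← map_pow, PowerSeries.coeff_map,
    PowerSeries.coeff_map, ← sub_eq_zero, ← map_sub, ht, map_mul, map_natCast, CharP.cast_eq_zero,
    zero_mul]

/-- Difference of two laws in degree `p^j`. -/
lemma law_sub_lowDegree (v v' : ℕ → A) (j : ℕ) (hj : 1 ≤ j)
    (hvv : ∀ i, 1 ≤ i → i < j → v i = v' i) (d : Fin 2 →₀ ℕ) (hd : deg d ≤ p ^ j) :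
    coeff d (law p v).toPowerSeries - coeff d (law p v').toPowerSeries =
      -(v j - v' j) * coeff d (cPoly p A j) := by
  set V : ℕ → MvPolynomial (ℕ ⊕ ℕ) ℤ := fun i => MvPolynomial.X (Sum.inl i) with hV
  set V' : ℕ → MvPolynomial (ℕ ⊕ ℕ) ℤ := fun i =>
    if 1 ≤ i ∧ i < j then MvPolynomial.X (Sum.inl i) else MvPolynomial.X (Sum.inr i) with hV'
  set ι : MvPolynomial (ℕ ⊕ ℕ) ℤ →+* MvPolynomial (ℕ ⊕ ℕ) ℚ :=
    MvPolynomial.map (Int.castRingHom ℚ) with hι
  have hιi : Function.Injective ι := MvPolynomial.map_injective _ (RingHom.injective_int _)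
  have hpc : (p : MvPolynomial (ℕ ⊕ ℕ) ℚ) * MvPolynomial.C ((p : ℚ)⁻¹) = 1 := by
    rw [← map_natCast (MvPolynomial.C : ℚ →+* MvPolynomial (ℕ ⊕ ℕ) ℚ), ← map_mul,
      mul_inv_cancel₀ (Nat.cast_ne_zero.mpr hp.out.ne_zero), map_one]
  have key := law_coeff_sub hpc (V := fun i => ι (V i)) (V' := fun i => ι (V' i)) hj
    (fun i a b => by rw [hV, hV']; simp only; rw [if_pos ⟨a, b⟩]) d hd
  rw [← map_law, ← map_law] at key
  have key' : coeff d (law p V).toPowerSeries - coeff d (law p V').toPowerSeries =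
      -(V j - V' j) * coeff d (cPoly p (MvPolynomial (ℕ ⊕ ℕ) ℤ) j) := hιi (by
    rw [map_sub, map_mul, map_neg, map_sub, map_cPoly, ← key]
    simp [coeff_map])
  set g : MvPolynomial (ℕ ⊕ ℕ) ℤ →+* A :=
    (MvPolynomial.aeval (Sum.elim v v') : MvPolynomial (ℕ ⊕ ℕ) ℤ →ₐ[ℤ] A).toRingHom with hg
  have hgV : (fun i => g (V i)) = v := funext fun i => by simp [hg, hV]
  have hgV' : (fun i => g (V' i)) = v' := funext fun i => by
    rw [hg, hV']
    simp only
    split_ifs with h
    · simpa using hvv i h.1 h.2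
    · simp
  have e := congrArg g key'
  rw [map_sub, map_mul, map_neg, map_sub, map_cPoly, ← coeff_map, ← coeff_map,
    congrFun hgV j, congrFun hgV' j] at e
  rw [show law p v = (law p V).map g by rw [map_law, hgV],
    show law p v' = (law p V').map g by rw [map_law, hgV']]
  exact e

lemma pSer_leading (v : ℕ → A) (j : ℕ) (hj : 1 ≤ j) :
    PowerSeries.coeff (p ^ j) (pSer p (law p v)) - v j ∈
      Ideal.span (insert (p : A) (v '' {i | 1 ≤ i ∧ i < j})) := by
  set J := Ideal.span (insert (p : A) (v '' {i | 1 ≤ i ∧ i < j})) with hJ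
  set V : ℕ → MvPolynomial ℕ ℤ := fun i =>
    if 1 ≤ i ∧ i < j then 0 else MvPolynomial.X i with hV
  have key := coeff_pSer_of_low (p_mul_invP p) (V := fun i => toQ (V i)) hj
    (fun i a b => by rw [hV]; simp only; rw [if_pos ⟨a, b⟩, map_zero])
  have key' : PowerSeries.coeff (p ^ j) (pSer p (law p V)) =
      V j - V j * (p : MvPolynomial ℕ ℤ) ^ (p ^ j - 1) := toQ_injective (by
    rw [← PowerSeries.coeff_map, map_pSer, key, map_sub, map_mul, map_pow, map_natCast])
  set π := Ideal.Quotient.mk J with hπ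
  set g : MvPolynomial ℕ ℤ →+* A ⧸ J :=
    (MvPolynomial.aeval fun i => π (v i) : MvPolynomial ℕ ℤ →ₐ[ℤ] A ⧸ J).toRingHom with hg
  have hgV : (fun i => g (V i)) = fun i => π (v i) := funext fun i => by
    rw [hV]
    simp only
    split_ifs with h
    · rw [map_zero, eq_comm, hπ, Ideal.Quotient.eq_zero_iff_mem]
      exact Ideal.subset_span (Set.mem_insert_of_mem _ ⟨i, h, rfl⟩)
    · simp [hg]
  have e := congrArg g key'
  rw [← PowerSeries.coeff_map, map_pSer, hgV, map_sub, map_mul, map_pow, map_natCast,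
    congrFun hgV j] at e
  have hp0 : (p : A ⧸ J) = 0 := by
    rw [← map_natCast π, hπ, Ideal.Quotient.eq_zero_iff_mem]
    exact Ideal.subset_span (Set.mem_insert _ _)
  have h2 : p ^ j - 1 ≠ 0 := by
    have := le_trans hp.out.two_le (Nat.le_self_pow (show j ≠ 0 by omega) p)
    omega
  rw [hp0, zero_pow h2, mul_zero, sub_zero] at e
  rw [← Ideal.Quotient.eq, ← hπ, ← PowerSeries.coeff_map, map_pSer]
  exact e

lemma pSer_support (v : ℕ → A) (h : ℕ) [CharP A p] (hv : ∀ i, 1 ≤ i → i < h → v i = 0) (m : ℕ)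
    (hm : ¬ p ^ h ∣ m) : PowerSeries.coeff m (pSer p (law p v)) = 0 := by
  set V : ℕ → MvPolynomial ℕ ℤ := fun i =>
    if 1 ≤ i ∧ i < h then 0 else MvPolynomial.X i with hV
  obtain ⟨t, ht⟩ := pSer_dvd_of_low toQ_injective (p_mul_invP p) (v := V) (h := h)
    (fun i a b => if_pos ⟨a, b⟩) m hm
  set g : MvPolynomial ℕ ℤ →+* A :=
    (MvPolynomial.aeval v : MvPolynomial ℕ ℤ →ₐ[ℤ] A).toRingHom with hg
  have hgV : (fun i => g (V i)) = v := funext fun i => by
    rw [hV]
    simp only
    split_ifs with hi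
    · rw [map_zero, hv i hi.1 hi.2]
    · simp [hg]
  rw [← hgV, ← map_pSer, PowerSeries.coeff_map, ht, map_mul, map_natCast, CharP.cast_eq_zero,
    zero_mul]

end Target

/-- `LowDegreeTarget`. -/
theorem lowDegreeTarget : LowDegreeTarget := fun p _ A _ =>
  ⟨law_sub_lowDegree p A, pSer_leading p A,
    fun v h hc hv m hm => haveI := hc; pSer_support p A v h hv m hm,
    fun n hn hc => haveI := hc; pSer_honda p A n hn⟩

end Vale.Agent.P217
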